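import Mathlib

/-!
Division rings algebraic over a perfect central subfield with nilpotent Galois groups and no
noncommutative finite-dimensional division algebras.
-/

open Polynomial

namespace Vale.Agent.P199

universe u v

section Indep

variable {D : Type u} [DivisionRing D]

/-- A relation `∑ u i * x * v i = 0` for all `x`, with `v` independent over the center, is trivial. -/
lemma eq_zero_of_forall_sum_mul_mul {ι : Type*} [DecidableEq ι] (v : ι → D)
    (hv : LinearIndependent (Subring.center D) v) :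
    ∀ (s : Finset ι) (u : ι → D), (∀ x, ∑ i ∈ s, u i * x * v i = 0) → ∀ i ∈ s, u i = 0 := by
  intro s
  induction s using Finset.strongInduction with
  | _ s ih =>
    intro u hu a ha
    by_contra hne
    obtain ⟨w, hw⟩ : ∃ w : ι → D, ∀ i, w i = (u a)⁻¹ * u i := ⟨_, fun _ => rfl⟩
    have hwa : w a = 1 := by rw [hw, inv_mul_cancel₀ hne]
    have hw0 : ∀ x, ∑ i ∈ s, w i * x * v i = 0 := fun x => by
      simp only [hw, mul_assoc, ← Finset.mul_sum]
      have := hu x
      simp only [mul_assoc] at this
      rw [this, mul_zero]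
    have hcomm : ∀ y, ∀ i ∈ s, w i * y = y * w i := by
      intro y i hi
      have h : ∀ x, ∑ j ∈ s.erase a, (w j * y - y * w j) * x * v j = 0 := fun x => by
        rw [Finset.sum_erase _ (by simp [hwa])]
        have h1 := hw0 (y * x)
        have h2 := hw0 x
        simp only [sub_mul, Finset.sum_sub_distrib, mul_assoc] at h1 h2 ⊢
        rw [h1, ← Finset.mul_sum, h2, mul_zero, sub_zero]
      by_cases hia : i = a
      · subst hia; simp [hwa]
      · exact sub_eq_zero.1 (ih _ (Finset.erase_ssubset ha) _ h i (Finset.mem_erase.2 ⟨hia, hi⟩))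
    classical
    obtain ⟨c, hc⟩ : ∃ c : ι → Subring.center D, ∀ i ∈ s, (c i : D) = w i :=
      ⟨fun i => if h : i ∈ s then
          ⟨w i, Subring.mem_center_iff.2 fun y => (hcomm y i h).symm⟩ else 0,
        fun i hi => by simp [hi]⟩
    have hrel : ∑ i ∈ s, c i • v i = 0 := by
      have := hw0 1
      simp only [mul_one] at this
      refine (Finset.sum_congr rfl fun i hi => ?_).trans this
      rw [← hc i hi]
      rfl
    have := hc a ha
    rw [linearIndependent_iff'.1 hv s c hrel a ha, hwa] at this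
    simp at this

/-- A root of the minimal polynomial of `a` over the center is conjugate to `a`. -/
lemma exists_conj (a b : D) (ha : IsIntegral (Subring.center D) a)
    (hb : aeval b (minpoly (Subring.center D) a) = 0) :
    ∃ g : D, g ≠ 0 ∧ g * a = b * g := by
  classical
  obtain ⟨f, hf⟩ : ∃ f, f = minpoly (Subring.center D) a := ⟨_, rfl⟩
  obtain ⟨n, hn⟩ : ∃ n, n = f.natDegree := ⟨_, rfl⟩
  obtain ⟨C', hC⟩ : ∃ C' : ℕ → D, ∀ j, C' j = algebraMap (Subring.center D) D (f.coeff j) :=
    ⟨_, fun _ => rfl⟩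
  obtain ⟨w, hw⟩ : ∃ w : ℕ → D, ∀ j, w j = ∑ i ∈ Finset.range (n + 1 - j), C' (i + j) * b ^ i :=
    ⟨_, fun _ => rfl⟩
  have hn1 : 0 < n := hn ▸ hf ▸ minpoly.natDegree_pos ha
  have hmon : f.Monic := hf ▸ minpoly.monic ha
  have hwn : w n = 1 := by
    rw [hw, show n + 1 - n = 1 by omega]
    simp [hC, hn, hmon.coeff_natDegree]
  have hw0 : w 0 = 0 := by
    rw [hw, ← hb, ← hf, aeval_eq_sum_range, Nat.sub_zero, hn]
    simp [hC, Algebra.smul_def]
  have hrec : ∀ j < n, b * w (j + 1) = w j - C' j := by
    intro j hj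
    have hbc : ∀ i, C' i * b = b * C' i := fun i => by rw [hC]; exact Algebra.commutes _ _
    rw [hw, hw, show n + 1 - j = (n + 1 - (j + 1)) + 1 by omega, Finset.sum_range_succ',
      pow_zero, mul_one, zero_add, add_sub_cancel_right, Finset.mul_sum]
    refine Finset.sum_congr rfl fun i _ => ?_
    rw [← mul_assoc, ← hbc, mul_assoc, ← pow_succ', show i + (j + 1) = i + 1 + j by omega]
  have hfa : (∑ j ∈ Finset.range n, C' j * a ^ j) + a ^ n = 0 := by
    have h := minpoly.aeval (Subring.center D) a
    rw [← hf, aeval_eq_sum_range, Finset.sum_range_succ, ← hn] at h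
    simp only [Algebra.smul_def] at h
    rw [hn, hmon.coeff_natDegree, map_one, one_mul, ← hn] at h
    simpa [hC] using h
  have key : ∀ x, b * (∑ j ∈ Finset.range n, w (j + 1) * x * a ^ j) =
      (∑ j ∈ Finset.range n, w (j + 1) * x * a ^ j) * a := by
    intro x
    rw [← sub_eq_zero, Finset.mul_sum, Finset.sum_mul, ← Finset.sum_sub_distrib]
    have e : ∀ j ∈ Finset.range n, b * (w (j + 1) * x * a ^ j) - w (j + 1) * x * a ^ j * a =
        (w j * x * a ^ j - w (j + 1) * x * a ^ (j + 1)) - x * (C' j * a ^ j) := by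
      intro j hj
      rw [← mul_assoc, ← mul_assoc, hrec j (Finset.mem_range.1 hj), sub_mul, sub_mul,
        mul_assoc (w (j + 1) * x), ← pow_succ, ← mul_assoc x (C' j), hC, ← Algebra.commutes]
      abel
    rw [Finset.sum_congr rfl e, Finset.sum_sub_distrib,
      Finset.sum_range_sub' (fun j => w j * x * a ^ j), hw0, hwn, ← Finset.mul_sum,
      eq_neg_of_add_eq_zero_left hfa]
    simp
  have hv : LinearIndependent (Subring.center D) (fun j : Fin n => a ^ (j : ℕ)) := by
    have := linearIndependent_pow (K := Subring.center D) a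
    rw [← hf, ← hn] at this
    exact this
  by_contra hne
  push Not at hne
  have hall : ∀ x, ∑ j : Fin n, w ((j : ℕ) + 1) * x * a ^ (j : ℕ) = 0 := fun x => by
    rw [Fin.sum_univ_eq_sum_range (fun j => w (j + 1) * x * a ^ j)]
    by_contra h
    exact hne _ h (key x).symm
  have := eq_zero_of_forall_sum_mul_mul _ hv Finset.univ _ hall ⟨n - 1, by omega⟩ (Finset.mem_univ _)
  rw [show n - 1 + 1 = n by omega, hwn] at this
  exact one_ne_zero this

end Indep

/-- With nilpotent Galois groups an element outside the ground field has a second conjugate in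
every finite extension containing it. -/
lemma exists_other_root {k : Type v} [Field k] [PerfectField k]
    (hnil : ∀ (N : Type u) [Field N] [Algebra k N] [FiniteDimensional k N] [IsGalois k N],
      Group.IsNilpotent (N ≃ₐ[k] N))
    {K L : Type u} [Field K] [Field L] [Algebra k K] [Algebra K L] [Algebra k L]
    [IsScalarTower k K L] [FiniteDimensional k L] {θ : L}
    (hθ : θ ∉ (algebraMap K L).range) (p : K[X]) (hp : p.eval₂ (algebraMap K L) θ = 0) :
    ∃ r : L, r ≠ θ ∧ p.eval₂ (algebraMap K L) r = 0 := by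
  let Ω := AlgebraicClosure L
  let N := IntermediateField.normalClosure k L Ω
  have : Algebra.IsSeparable k N := Algebra.IsAlgebraic.isSeparable_of_perfectField
  have hG : IsGalois k N := isGalois_iff.2 ⟨inferInstance, inferInstance⟩
  have := hnil N
  let ι : L →ₐ[k] N := IsScalarTower.toAlgHom k L N
  let κ : K →ₐ[k] N := ι.comp (IsScalarTower.toAlgHom k K L)
  let HK : Subgroup (N ≃ₐ[k] N) := κ.fieldRange.fixingSubgroup
  let H : Subgroup HK :=
    { carrier := {g | g.1 (ι θ) = ι θ}
      one_mem' := rfl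
      mul_mem' := fun {g h} hg hh => by
        show g.1 (h.1 (ι θ)) = ι θ
        rw [hh, hg]
      inv_mem' := fun {g} hg => by
        show g.1⁻¹ (ι θ) = ι θ
        conv_lhs => rw [← hg]
        exact g.1.symm_apply_apply _ }
  have hfixK : ∀ g : HK, ∀ x : K, g.1 (κ x) = κ x := fun g x =>
    (IntermediateField.mem_fixingSubgroup_iff _ _).1 g.2 _ ⟨x, rfl⟩
  have htop : H ≠ ⊤ := by
    intro h
    have hmem : ι θ ∈ IntermediateField.fixedField κ.fieldRange.fixingSubgroup :=
      (IntermediateField.mem_fixedField_iff _ _).2 fun g hg =>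
        (show (⟨g, hg⟩ : HK) ∈ H by rw [h]; trivial)
    rw [IsGalois.fixedField_fixingSubgroup] at hmem
    obtain ⟨x, hx⟩ := hmem
    exact hθ ⟨x, ι.toRingHom.injective hx⟩
  have hlt := Group.normalizerCondition_of_isNilpotent (G := HK) H (lt_top_iff_ne_top.2 htop)
  obtain ⟨g, hg, hgH⟩ := SetLike.exists_of_lt hlt
  have hgE : g.1 (ι θ) ∈ ι.fieldRange := by
    rw [← IsGalois.fixedField_fixingSubgroup (F := k) ι.fieldRange]
    refine (IntermediateField.mem_fixedField_iff _ _).2 fun h hh => ?_
    have hhK : h ∈ HK := (IntermediateField.mem_fixingSubgroup_iff _ _).2 fun y hy => by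
      obtain ⟨x, rfl⟩ := hy
      exact (IntermediateField.mem_fixingSubgroup_iff _ _).1 hh _ ⟨algebraMap K L x, rfl⟩
    have hh' : (⟨h, hhK⟩ : HK) ∈ H :=
      (IntermediateField.mem_fixingSubgroup_iff _ _).1 hh _ ⟨θ, rfl⟩
    have hc : g⁻¹ * ⟨h, hhK⟩ * g ∈ H := by
      rw [Subgroup.mem_normalizer_iff''] at hg
      exact (hg _).1 hh'
    have hc' : g.1⁻¹ (h (g.1 (ι θ))) = ι θ := hc
    calc h (g.1 (ι θ)) = g.1 (g.1⁻¹ (h (g.1 (ι θ)))) := (g.1.apply_symm_apply _).symm
      _ = g.1 (ι θ) := by rw [hc']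
  obtain ⟨r, hr⟩ := hgE
  refine ⟨r, fun h => hgH (show g.1 (ι θ) = ι θ by rw [← hr, h]; rfl), ι.toRingHom.injective ?_⟩
  rw [map_zero, Polynomial.hom_eval₂]
  have e : (g.1 : N →+* N).comp (ι.toRingHom.comp (algebraMap K L)) =
      ι.toRingHom.comp (algebraMap K L) := RingHom.ext fun x => hfixK g x
  have h2 := congrArg (fun z => (g.1 : N →+* N) (ι.toRingHom z)) hp
  simp only [map_zero, Polynomial.hom_eval₂, e] at h2
  exact (congrArg (fun z => Polynomial.eval₂ _ z p) hr).trans h2

/-- The main result. -/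
theorem commutative {k : Type v} [Field k] [PerfectField k]
    (hnil : ∀ (N : Type u) [Field N] [Algebra k N] [FiniteDimensional k N] [IsGalois k N],
      Group.IsNilpotent (N ≃ₐ[k] N))
    (hbr : ∀ (A : Type u) [DivisionRing A] [Algebra k A] [FiniteDimensional k A],
      ∀ x y : A, x * y = y * x)
    {D : Type u} [DivisionRing D] [Algebra k D] [Algebra.IsAlgebraic k D] :
    ∀ x y : D, x * y = y * x := by
  classical
  by_contra hne
  push Not at hne
  obtain ⟨a, y, hay⟩ := hne
  let F := Subring.center D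
  letI : Algebra k F := ((algebraMap k D).codRestrict F fun c =>
    Subring.mem_center_iff.2 fun z => (Algebra.commutes c z).symm).toAlgebra
  have : IsScalarTower k F D := IsScalarTower.of_algebraMap_eq fun c => rfl
  have : Algebra.IsAlgebraic k F := ⟨fun x => by
    rw [← isAlgebraic_algebraMap_iff (A := D) (algebraMap F D).injective]
    exact Algebra.IsAlgebraic.isAlgebraic _⟩
  have ha : IsIntegral F a := (Algebra.IsAlgebraic.isAlgebraic (R := k) a).isIntegral.tower_top
  obtain ⟨f, hf⟩ : ∃ f, f = minpoly F a := ⟨_, rfl⟩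
  let k₂ : IntermediateField k F := IntermediateField.adjoin k (f.coeffs : Set F)
  have : FiniteDimensional k k₂ := IntermediateField.finiteDimensional_adjoin fun x _ =>
    (Algebra.IsAlgebraic.isAlgebraic (R := k) x).isIntegral
  have : PerfectField k₂ := Algebra.IsAlgebraic.perfectField k
  have hl : f ∈ Polynomial.lifts (algebraMap k₂ F) := by
    rw [Polynomial.lifts_iff_coeff_lifts]
    intro i
    by_cases h : f.coeff i = 0
    · exact ⟨0, by rw [h, map_zero]⟩
    · exact ⟨⟨_, IntermediateField.subset_adjoin k _ (Polynomial.coeff_mem_coeffs h)⟩, rfl⟩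
  obtain ⟨f₂, hmap, hdeg, hmon⟩ :=
    Polynomial.lifts_and_natDegree_eq_and_monic hl (hf ▸ minpoly.monic ha)
  have hirr : Irreducible f₂ :=
    hmon.irreducible_of_irreducible_map (algebraMap k₂ F) _
      (hmap.symm ▸ hf ▸ minpoly.irreducible ha)
  have : Fact (Irreducible f₂) := ⟨hirr⟩
  let L := AdjoinRoot f₂
  have : Module.Finite k₂ L := hmon.finite_adjoinRoot
  have : Module.Finite k L := Module.Finite.trans k₂ L
  have hdeg2 : 2 ≤ f.natDegree := by
    rw [hf, minpoly.two_le_natDegree_iff ha]
    rintro ⟨c, rfl⟩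
    exact hay (Algebra.commutes c y)
  have hroot : AdjoinRoot.root f₂ ∉ (algebraMap k₂ L).range := by
    intro hmem
    have h1 := (minpoly.two_le_natDegree_iff (AdjoinRoot.isIntegral_root hirr.ne_zero)).1
      (by rw [AdjoinRoot.minpoly_root hirr.ne_zero, hmon.leadingCoeff, inv_one, C_1, mul_one]
          omega)
    exact h1 hmem
  obtain ⟨r, hrne, hr⟩ := exists_other_root hnil hroot f₂ (AdjoinRoot.eval₂_root f₂)
  let σ : L →ₐ[k₂] L := AdjoinRoot.liftAlgHom f₂ (Algebra.ofId k₂ L) r hr
  have haf : aeval a f₂ = 0 := by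
    rw [← aeval_map_algebraMap F, hmap, hf, minpoly.aeval]
  let φ : L →ₐ[k₂] D := Ideal.Quotient.liftₐ (Ideal.span {f₂}) (aeval a) (by
    intro q hq
    obtain ⟨c, rfl⟩ := Ideal.mem_span_singleton.1 hq
    rw [map_mul, haf, zero_mul])
  have hφ : φ (AdjoinRoot.root f₂) = a := aeval_X a
  obtain ⟨b, hbdef⟩ : ∃ b, b = φ r := ⟨_, rfl⟩
  have hσ : σ (AdjoinRoot.root f₂) = r := AdjoinRoot.liftAlgHom_root _ _ _ _
  have hb : aeval b (minpoly F a) = 0 := by
    rw [← hf, ← hmap, aeval_map_algebraMap, hbdef, aeval_algHom_apply]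
    rw [show aeval r f₂ = 0 from hr, map_zero]
  have hba : b ≠ a := fun h => hrne (φ.toRingHom.injective ((hbdef ▸ h).trans hφ.symm))
  obtain ⟨g, hg0, hg⟩ := exists_conj a b ha hb
  have hsemi : ∀ l : L, g * φ l = φ (σ l) * g := by
    intro l
    induction l using AdjoinRoot.induction_on with
    | _ q =>
      have e : AdjoinRoot.mk f₂ q = aeval (AdjoinRoot.root f₂) q := (AdjoinRoot.aeval_eq q).symm
      rw [e, ← aeval_algHom_apply σ, ← aeval_algHom_apply φ, ← aeval_algHom_apply φ, hφ, hσ, ← hbdef]
      clear e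
      induction q using Polynomial.induction_on' with
      | add p q hp hq => rw [map_add, map_add, mul_add, add_mul, hp, hq]
      | monomial n c =>
        rw [aeval_monomial, aeval_monomial, ← mul_assoc, ← Algebra.commutes, mul_assoc, mul_assoc,
          (SemiconjBy.pow_right (show SemiconjBy g a b from hg) n).eq]
  let R : Submodule k D := LinearMap.range (φ.restrictScalars k).toLinearMap
  let T : Submodule k D := Subalgebra.toSubmodule (Algebra.adjoin k {g})
  have hRR : R * R ≤ R := Submodule.mul_le.2 fun x hx z hz => by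
    obtain ⟨x, rfl⟩ := hx
    obtain ⟨z, rfl⟩ := hz
    exact ⟨x * z, map_mul φ x z⟩
  have hTT : T * T ≤ T := Submodule.mul_le.2 fun x hx z hz => mul_mem (s := Algebra.adjoin k {g}) hx hz
  have hTR : T * R ≤ R * T := by
    refine Submodule.mul_le.2 fun x hx z hz => ?_
    obtain ⟨l, rfl⟩ := hz
    rw [Subalgebra.mem_toSubmodule, Algebra.adjoin_singleton_eq_range_aeval] at hx
    obtain ⟨q, rfl⟩ := hx
    have hpow : ∀ (n : ℕ) (l : L), g ^ n * φ l = φ ((σ : L → L)^[n] l) * g ^ n := by
      intro n
      induction n with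
      | zero => intro l; simp
      | succ n ih =>
        intro l
        rw [pow_succ, mul_assoc, hsemi, ← mul_assoc, ih, Function.iterate_succ_apply, mul_assoc]
    show aeval g q * φ l ∈ R * T
    induction q using Polynomial.induction_on' with
    | add p q hp hq => rw [map_add, add_mul]; exact add_mem hp hq
    | monomial n c =>
      rw [aeval_monomial, mul_assoc, hpow, ← Algebra.smul_def]
      exact Submodule.smul_mem _ _ (Submodule.mul_mem_mul ⟨_, rfl⟩
        (Subalgebra.pow_mem _ (Algebra.self_mem_adjoin_singleton k g) n))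
  have hRT : R.FG ∧ T.FG :=
    ⟨Module.Finite.iff_fg.1 inferInstance,
      (Algebra.IsAlgebraic.isAlgebraic (R := k) g).isIntegral.fg_adjoin_singleton⟩
  have h1R : (1 : D) ∈ R := ⟨1, map_one φ⟩
  have h1T : (1 : D) ∈ T := one_mem (Algebra.adjoin k {g})
  let S : Subalgebra k D := (R * T).toSubalgebra
    (by simpa using Submodule.mul_mem_mul h1R h1T)
    (fun x z hx hz => by
      have h : R * T * (R * T) ≤ R * T :=
        calc R * T * (R * T) = R * (T * R) * T := by simp only [mul_assoc]
          _ ≤ R * (R * T) * T := mul_le_mul' (mul_le_mul' le_rfl hTR) le_rfl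
          _ = (R * R) * (T * T) := by simp only [mul_assoc]
          _ ≤ R * T := mul_le_mul' hRR hTT
      exact h (Submodule.mul_mem_mul hx hz))
  have : Module.Finite k S := Module.Finite.of_fg (hRT.1.mul hRT.2)
  letI : DivisionRing S := divisionRingOfFiniteDimensional k S
  have hgS : g ∈ S := by
    show g ∈ R * T
    simpa using Submodule.mul_mem_mul h1R (Algebra.self_mem_adjoin_singleton k g : g ∈ T)
  have haS : a ∈ S := by
    show a ∈ R * T
    simpa using Submodule.mul_mem_mul (show a ∈ R from ⟨AdjoinRoot.root f₂, hφ⟩) h1T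
  have hc : g * a = a * g := congrArg Subtype.val (hbr S ⟨g, hgS⟩ ⟨a, haS⟩)
  exact hba (mul_right_cancel₀ hg0 (hg.symm.trans hc))

end Vale.Agent.P199
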