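import Mathlib

/-!
The binomial theorem for `q`-commuting elements, and the nonvanishing of its coefficients at a
primitive root of unity.
-/

namespace Vale.Agent.P199

open Finset

variable {F : Type*} [Field F]

/-- Gaussian binomial coefficient, evaluated at `q`. -/
def qbin (q : F) : ℕ → ℕ → F
  | _, 0 => 1
  | 0, _ + 1 => 0
  | n + 1, i + 1 => qbin q n i + q ^ (i + 1) * qbin q n (i + 1)

@[simp] lemma qbin_zero_right (q : F) (n : ℕ) : qbin q n 0 = 1 := by cases n <;> rfl

lemma qbin_eq_zero_of_lt (q : F) : ∀ {n i : ℕ}, n < i → qbin q n i = 0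
  | 0, i + 1, _ => rfl
  | n + 1, i + 1, h => by
      rw [qbin, qbin_eq_zero_of_lt q (by omega), qbin_eq_zero_of_lt q (by omega)]
      simp

@[simp] lemma qbin_self (q : F) : ∀ n : ℕ, qbin q n n = 1
  | 0 => rfl
  | n + 1 => by rw [qbin, qbin_self q n, qbin_eq_zero_of_lt q (by omega)]; simp

/-- The product formula. -/
lemma qbin_mul_prod (q : F) : ∀ n i : ℕ, i ≤ n →
    qbin q n i * ∏ j ∈ range i, (q ^ (j + 1) - 1) = ∏ j ∈ range i, (q ^ (n - j) - 1)
  | n, 0, _ => by simp
  | 0, i + 1, h => absurd h (by omega)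
  | n + 1, i + 1, h => by
      have hi := qbin_mul_prod q n i (by omega)
      have e1 : ∏ j ∈ range (i + 1), (q ^ (n + 1 - j) - 1) =
          (∏ j ∈ range i, (q ^ (n - j) - 1)) * (q ^ (n + 1) - 1) := by
        rw [prod_range_succ']; simp
      rw [qbin, e1]
      rcases eq_or_lt_of_le h with h' | h'
      · have : i = n := by omega
        subst this
        rw [qbin_eq_zero_of_lt q (show i < i + 1 by omega), prod_range_succ, mul_zero, add_zero, ← hi]
        ring
      · have hi' := qbin_mul_prod q n (i + 1) (by omega)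
        have e3 : q ^ (n + 1) = q ^ (i + 1) * q ^ (n - i) := by
          rw [← pow_add]; congr 1; omega
        rw [prod_range_succ, prod_range_succ] at hi'
        rw [prod_range_succ, e3]
        linear_combination ((q ^ (i + 1) - 1) + q ^ (i + 1) * (q ^ (n - i) - 1)) * hi +
          q ^ (i + 1) * hi' - q ^ (i + 1) * (q ^ (n - i) - 1) * hi

/-- Nonvanishing below the order of `q`. -/
lemma qbin_ne_zero {q : F} {M n i : ℕ} (hq : IsPrimitiveRoot q M) (hn : n < M) (hi : i ≤ n) :
    qbin q n i ≠ 0 := by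
  intro h
  have := qbin_mul_prod q n i hi
  rw [h, zero_mul] at this
  obtain ⟨j, hj, hj0⟩ := prod_eq_zero_iff.1 this.symm
  rw [sub_eq_zero] at hj0
  have hj := mem_range.1 hj
  exact absurd (Nat.le_of_dvd (by omega) ((hq.pow_eq_one_iff_dvd _).1 hj0)) (by omega)

/-- Vanishing at the order of `q`. -/
lemma qbin_eq_zero {q : F} {M i : ℕ} (hq : IsPrimitiveRoot q M) (h0 : 0 < i) (hi : i < M) :
    qbin q M i = 0 := by
  have := qbin_mul_prod q M i hi.le
  rw [show ∏ j ∈ range i, (q ^ (M - j) - 1) = 0 from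
    prod_eq_zero (mem_range.2 h0) (by simp [hq.pow_eq_one]), mul_eq_zero] at this
  refine this.resolve_right fun h => ?_
  obtain ⟨j, hj, hj0⟩ := prod_eq_zero_iff.1 h
  rw [sub_eq_zero] at hj0
  have hj := mem_range.1 hj
  exact absurd (Nat.le_of_dvd (by omega) ((hq.pow_eq_one_iff_dvd _).1 hj0)) (by omega)

variable {A : Type*} [Ring A] [Algebra F A] {q : F} {X Y a b : A}

lemma mul_pow_qcomm (h : Y * X = q • (X * Y)) : ∀ i : ℕ, Y * X ^ i = q ^ i • (X ^ i * Y)
  | 0 => by simp
  | i + 1 => by
      rw [pow_succ X i, ← mul_assoc, mul_pow_qcomm h i, smul_mul_assoc, mul_assoc, h,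
        mul_smul_comm, smul_smul, ← mul_assoc, ← pow_succ]

/-- The `q`-binomial theorem. -/
theorem qbinom_theorem (h : Y * X = q • (X * Y)) (hab : Commute a b) (haX : Commute a X)
    (haY : Commute a Y) (hbX : Commute b X) (hbY : Commute b Y) : ∀ n : ℕ,
    (a * X + b * Y) ^ n =
      ∑ i ∈ range (n + 1), qbin q n i • (a ^ i * b ^ (n - i) * (X ^ i * Y ^ (n - i)))
  | 0 => by simp
  | n + 1 => by
      have tX : ∀ i, a * X * (a ^ i * b ^ (n - i) * (X ^ i * Y ^ (n - i))) =
          a ^ (i + 1) * b ^ (n + 1 - (i + 1)) * (X ^ (i + 1) * Y ^ (n + 1 - (i + 1))) := by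
        intro i
        rw [show n + 1 - (i + 1) = n - i by omega, pow_succ' a, pow_succ' X]
        have hc : Commute X (a ^ i * b ^ (n - i)) :=
          (haX.symm.pow_right i).mul_right (hbX.symm.pow_right _)
        simp only [mul_assoc]
        rw [← mul_assoc X (a ^ i), (haX.symm.pow_right i).eq, mul_assoc,
          ← mul_assoc X (b ^ (n - i)), (hbX.symm.pow_right _).eq, mul_assoc]
      have tY : ∀ i, i ≤ n → b * Y * (a ^ i * b ^ (n - i) * (X ^ i * Y ^ (n - i))) =
          q ^ i • (a ^ i * b ^ (n + 1 - i) * (X ^ i * Y ^ (n + 1 - i))) := by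
        intro i hi
        rw [show n + 1 - i = (n - i) + 1 by omega, pow_succ' b, pow_succ' Y]
        simp only [mul_assoc]
        rw [← mul_assoc Y (a ^ i), (haY.symm.pow_right i).eq, mul_assoc,
          ← mul_assoc Y (b ^ (n - i)), (hbY.symm.pow_right _).eq, mul_assoc,
          ← mul_assoc Y (X ^ i), mul_pow_qcomm h, smul_mul_assoc, mul_smul_comm, mul_smul_comm,
          mul_smul_comm, mul_assoc, ← mul_assoc b (a ^ i), (hab.symm.pow_right i).eq, mul_assoc]
      set T : ℕ → A := fun i => a ^ i * b ^ (n + 1 - i) * (X ^ i * Y ^ (n + 1 - i)) with hT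
      rw [pow_succ', qbinom_theorem h hab haX haY hbX hbY n, add_mul, Finset.mul_sum,
        Finset.mul_sum]
      simp_rw [mul_smul_comm, tX]
      rw [show ∑ i ∈ range (n + 1), qbin q n i • (b * Y * (a ^ i * b ^ (n - i) * (X ^ i * Y ^ (n - i))))
          = ∑ i ∈ range (n + 1), (qbin q n i * q ^ i) • (a ^ i * b ^ (n + 1 - i) *
            (X ^ i * Y ^ (n + 1 - i))) from Finset.sum_congr rfl fun i hi => by
        rw [tY i (Nat.lt_succ_iff.1 (mem_range.1 hi)), smul_smul]]
      change ∑ i ∈ range (n + 1), qbin q n i • T (i + 1) +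
        ∑ i ∈ range (n + 1), (qbin q n i * q ^ i) • T i =
        ∑ i ∈ range (n + 1 + 1), qbin q (n + 1) i • T i
      have e : ∑ i ∈ range (n + 1), (qbin q n i * q ^ i) • T i =
          ∑ i ∈ range (n + 1 + 1), (qbin q n i * q ^ i) • T i := by
        rw [sum_range_succ _ (n + 1), qbin_eq_zero_of_lt q (by omega), zero_mul, zero_smul,
          add_zero]
      rw [e, sum_range_succ' _ (n + 1), sum_range_succ' _ (n + 1), ← add_assoc, ← sum_add_distrib]
      congr 1
      · refine sum_congr rfl fun i _ => ?_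
        rw [qbin, ← add_smul]; congr 1; ring
      · simp

/-- At a primitive root of unity the power is `a ^ M * X ^ M + b ^ M * Y ^ M`. -/
theorem qbinom_pow_order {M : ℕ} (hM : 0 < M) (hq : IsPrimitiveRoot q M)
    (h : Y * X = q • (X * Y)) (hab : Commute a b) (haX : Commute a X)
    (haY : Commute a Y) (hbX : Commute b X) (hbY : Commute b Y) :
    (a * X + b * Y) ^ M = a ^ M * X ^ M + b ^ M * Y ^ M := by
  rw [qbinom_theorem h hab haX haY hbX hbY, sum_range_succ,
    sum_eq_single 0 (fun i hi h0 => by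
      rw [qbin_eq_zero hq (Nat.pos_of_ne_zero h0) (mem_range.1 hi), zero_smul])
      (by simp; omega)]
  simp [add_comm]

/-- `u = X' * Y`, with `X'` inverse to `X`, `q`-commutes with `a X + b Y`. -/
theorem inv_mul_qcomm {X' : A} (h : Y * X = q • (X * Y)) (hX : X' * X = 1) (hX' : X * X' = 1)
    (haX : Commute a X) (haY : Commute a Y) (hbX : Commute b X) (hbY : Commute b Y) :
    X' * Y * (a * X + b * Y) = q • ((a * X + b * Y) * (X' * Y)) := by
  have h1 : X' * Y * X = q • Y := by
    rw [mul_assoc, h, mul_smul_comm, ← mul_assoc, hX, one_mul]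
  have h2 : X * (X' * Y) = Y := by rw [← mul_assoc, hX', one_mul]
  have h3 : X' * Y = q • (Y * X') := by
    calc X' * Y = X' * Y * (X * X') := by rw [hX', mul_one]
      _ = q • (Y * X') := by rw [← mul_assoc, h1, smul_mul_assoc]
  have ca : Commute a (X' * Y) := by
    refine Commute.mul_right ?_ haY
    calc a * X' = X' * X * (a * X') := by rw [hX, one_mul]
      _ = X' * (a * (X * X')) := by rw [mul_assoc X', ← mul_assoc X, ← haX.eq, mul_assoc]
      _ = X' * a := by rw [hX', mul_one]
  have cb : Commute b (X' * Y) := by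
    refine Commute.mul_right ?_ hbY
    calc b * X' = X' * X * (b * X') := by rw [hX, one_mul]
      _ = X' * (b * (X * X')) := by rw [mul_assoc X', ← mul_assoc X, ← hbX.eq, mul_assoc]
      _ = X' * b := by rw [hX', mul_one]
  rw [mul_add, ← mul_assoc, ← ca.eq, mul_assoc a, h1, mul_smul_comm, ← mul_assoc, ← cb.eq,
    mul_assoc b, add_mul, mul_assoc a X, h2, mul_assoc b Y, smul_add]
  congr 1
  conv_lhs => rw [h3, smul_mul_assoc, mul_assoc Y, mul_smul_comm]

end Vale.Agent.P199
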